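import Crest.Agent.X212.Win45.Nr
import Crest.Agent.X212.Dec47.Bas

/-!
# X212, SWD-WD (helper45): one gauge on a small window
-/

set_option autoImplicit false
set_option linter.unusedSectionVars false
noncomputable section
open scoped Manifold ContDiff Topology InnerProductSpace
open MeasureTheory Set Function Filter

namespace Crest.Agent.X212.Wd45
open An Sob92 Cyf70 Neck67 Cmp73 Bki64 Wz78 Sw Sw.En3 Win45 Dec47
open Sep15.S (admOn_mono)

variable {κ lam ν : Type} [Fintype κ] [Fintype lam] [Fintype ν] [DecidableEq ν]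
  {e : En3 κ lam ν} {c c' : e.ZC} {v : e.YC} {s r A C : ℝ} {k : ℕ} {x : e.Y.M × ℝ}
  {N : Type} [NormedAddCommGroup N] [NormedSpace ℝ N] {f : e.Y.M × ℝ → N}

theorem e_congr (ha : ∀ i, c.a i =ᶠ[𝓝 x] c'.a i) (hΦ : c.Φ =ᶠ[𝓝 x] c'.Φ) :
    e.cyl.eD c x = e.cyl.eD c' x ∧ e.cyl.eC c x = e.cyl.eC c' x := by
  have h : ∀ i, e.cyl.W c i =ᶠ[𝓝 x] e.cyl.W c' i := fun i =>
    (ha i).mono fun y h => by simp only [Bg.W, h]
  simp only [Bg.eD, Bg.eC, Bg.fc, curv, dir, nab, fun i j => dv_congr (e := e.cyl.F.e j) (h i),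
    fun i => (h i).self_of_nhds, fun j => dv_congr (e := e.cyl.F.e j) hΦ, hΦ.self_of_nhds, and_self]

theorem lb_ext {S : Set (e.Y.M × ℝ)} (h : Lb (FZ e) S k f C) (hC : 0 ≤ C) (hs : tsupport f ⊆ S) :
    Sm (IC e.Y.I) f ∧ (FZ e).CB k f C :=
  ⟨contMDiff_of_tsupport fun _ hx => h.sm (hs hx), fun w hw x => by
    by_cases hx : x ∈ S
    · exact h.Dw w hw x hx
    · rwa [image_eq_zero_of_notMem_tsupport fun h0 => hx (hs (tsupport_Dw f w h0)), norm_zero]⟩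

theorem ctr (hr : 0 < r) : s ∈ Ioo (s - r) (s + r) := ⟨by linarith, by linarith⟩

theorem wn_le {r' : ℝ} (h : r ≤ r') : (wn s r : Set (e.Y.M × ℝ)) ⊆ wn s r' :=
  prod_mono_right (Ioo_subset_Ioo (by linarith) (by linarith))

theorem lb_fin {φ : e.Y.M → N} (hs : ∀ x ∈ wn s (1 / 4), SA (IC e.Y.I) f x) (hA : 0 ≤ A)
    (hC : 0 ≤ C) (h1 : Lb (FZ e) (wn s (1 / 4)) k ((FZ e).D none f) A)
    (h2 : Lb (FY e) univ k (fun y => f (y, s) - φ y) C) :
    Lb (FZ e) (wn s (1 / 4)) k (fun x => f x - φ x.1) (3 / 2 * A + C) :=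
  (((lb_prim' (ctr (by norm_num)) hA hs h1).add wn_op (lb_fst wn_op hC h2)).congr wn_op
    fun _ _ => (sub_add_sub_cancel _ _ _).symm).mono (le_of_eq (by ring))

theorem gn_le (hw : 0 ≤ e.w) (hr : 0 ≤ r) (ha : ∀ k y, ‖(gr v).a k y‖ ≤ r)
    (hΦ : ∀ y, ‖(gr v).Φ y‖ ≤ r) :
    √(gn v) ≤ √(e.D.F.μ.real univ * (2 * Fintype.card κ + e.w)) * r := by
  have : IsFiniteMeasure e.D.F.μ := CompactSpace.isFiniteMeasure
  rw [← Real.sqrt_sq hr, ← Real.sqrt_mul (by positivity), mul_assoc,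
    ← smul_eq_mul (e.D.F.μ.real univ), ← integral_const]
  refine Real.sqrt_le_sqrt (integral_mono_of_nonneg (.of_forall (dens_nonneg hw _))
    (integrable_const _) (.of_forall fun y => ?_))
  have h1 : ∑ k, (gr v).a k y * (gr v).a k y ≤ ∑ _k : κ, r ^ 2 := Finset.sum_le_sum fun k _ => by
    rw [← sq]; exact sq_le_sq' (abs_le.1 (ha k y)).1 (abs_le.1 (ha k y)).2
  have h2 := mul_le_mul_of_nonneg_left (pow_le_pow_left₀ (norm_nonneg _) (hΦ y) 2) hw
  rw [Finset.sum_const, Finset.card_univ, nsmul_eq_mul] at h1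
  simp only [real_inner_self_eq_norm_sq]
  linarith

/-- unperturbed solutions on the window -/
abbrev Lw (c : e.ZC) (s : ℝ) : Prop := So c (some (s - 5 / 4)) (some (s + 5 / 4))

/-- temporal gauge -/
abbrev Tm (c : e.ZC) (s : ℝ) : Prop := ∀ x ∈ wn s (5 / 8), c.a none x = 0

/-- bounds -/
abbrev Bd (c : e.ZC) (s r : ℝ) (k : ℕ) (B : ℝ) : Prop :=
  (∀ i, Lb (FZ e) (wn s r) k (c.a i) B) ∧ Lb (FZ e) (wn s r) k c.Φ B

theorem Lw.adm (h : Lw c s) (hr : r ≤ 9 / 4) : e.cyl.AdmOn c (wn s r) :=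
  admOn_mono (loc_adm h) (prod_mono_right (Ioo_subset_Ioo (by linarith) (by linarith)))

theorem Lw.act (he : e.OK) (h : Lw c s) {u : e.Y.M × ℝ → ℂ} (hu : Gau e.Z.I u) :
    Lw (e.cyl.act u c) s ∧ en (e.cyl.act u c) (Ioo (s - 5 / 4) (s + 5 / 4)) =
      en c (Ioo (s - 5 / 4) (s + 5 / 4)) :=
  let h := Pb50.loca he h ⟨hu.1.contMDiffOn, fun x _ => hu.2 x⟩
  ⟨h.1, setLIntegral_congr_fun measurableSet_Ioo fun t ht => congrArg _
    (h.2 t ((jv_eq _ _).ge ⟨by linarith [ht.1], by linarith [ht.2]⟩)).2.1⟩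

theorem Lw.ea (h : Lw c s) (hr : r ≤ 5 / 4) {t : ℝ} (ht : t ∈ Ioo (s - r) (s + r)) : Ea c t :=
  fun y => let h1 := h.eq (y, t) ⟨trivial, (jv_eq _ _).ge ⟨by linarith [ht.1], by linarith [ht.2]⟩⟩
  ⟨h1.1, h1.2.trans (by simp [pt, tau])⟩

theorem Tm.act (h : Tm c s) {g : e.Y.M → ℂ} (hg : Sm e.Y.I g) :
    Tm (e.cyl.act (fun x => g x.1) c) s := fun x hx => by
  change c.a none x - lg (FZ e) none (fun x => g x.1) x = 0
  rw [h x hx, lg, D_none_fst _ hg]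
  simp

/-- a static gauge in which a temporal solution is bounded -/
theorem bdd (hL : LocwStmt κ lam ν) (he : e.OK) (hw : 0 < e.w) {B : ℝ} (hB : 0 ≤ B) (k : ℕ) :
    ∃ B', ∀ (c : e.ZC) s, Lw c s → Sup c (Ioo (s - 5 / 4) (s + 5 / 4)) B →
      en c (Ioo (s - 5 / 4) (s + 5 / 4)) ≤ ENNReal.ofReal B → Tm c s →
      ∃ g, Gau e.Y.I g ∧ Bd (e.cyl.act (fun x => g x.1) c) s (5 / 8) k B' := by
  obtain ⟨C, H⟩ := hL e he hw B (1 / 8) (5 / 2) (k + 1) (by norm_num)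
  let α := {d : e.ZC × ℝ // Lw d.1 d.2 ∧ Sup d.1 (Ioo (d.2 - 5 / 4) (d.2 + 5 / 4)) B ∧
    en d.1 (Ioo (d.2 - 5 / 4) (d.2 + 5 / 4)) ≤ ENNReal.ofReal B ∧ Tm d.1 d.2}
  let c : α → e.ZC := fun n => n.1.1
  let s : α → ℝ := fun n => n.1.2
  have h1 : ∀ n, Lw (c n) (s n) := fun n => n.2.1
  choose u hu hcl using fun n : α => H _ _ _ (c n) _ _ (by linarith)
    ⟨fun _ => 0, by simpa, by simp⟩ (h1 n) n.2.2.1 n.2.2.2.1
  have hg : ∀ n, Gau e.Y.I fun y => u n (y, s n) := fun n =>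
    ⟨sm_sl fun y => (hu n).1 _, fun y => (hu n).2 _⟩
  set c2 := fun n => e.cyl.act (fun x => u n (x.1, s n)) (c n)
  have a0 : ∀ n, Tm (c2 n) (s n) := fun n => Tm.act n.2.2.2.2 (hg n).1
  have ea : ∀ n j y, (c2 n).a (some j) (y, s n) = (e.cyl.act (u n) (c n)).a (some j) (y, s n) :=
    fun n j y => congrArg ((c n).a (some j) (y, s n) - ·) ((lg_sl (u := fun x => u n (x.1, s n))
      (sm_fst (hg n).1 (y, s n)) j).trans (lg_sl ((hu n).1 (y, s n)) j).symm)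
  have op : ∀ᶠ n in ⊤, IsOpen ((fun n => (wn (s n) (5 / 8) : Set (e.Y.M × ℝ))) n) :=
    .of_forall fun _ => wn_op
  have b := fun n => cl_lb (J := Ioo (s n - 5 / 8) (s n + 5 / 8)) isOpen_Ioo
    (((h1 n).act he (hu n)).1.adm (by norm_num)) fun w hw x hx => hcl n w hw x
      ⟨trivial, by linarith [hx.2.1], by linarith [hx.2.2]⟩
  have bL : ∀ i, BB (FZ e) ⊤ (fun n => wn (s n) (5 / 8)) (k + 1)
      fun n => (e.cyl.act (u n) (c n)).a i := fun i => ⟨C, .of_forall fun n => ⟨wn_op, (b n).1 i⟩⟩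
  have b1 : ∀ i, BB (FZ e) ⊤ (fun n => wn (s n) (5 / 8)) k fun n => (c2 n).a i := fun i => by
    cases i with
    | none => exact (BB.const op 0).congr (.of_forall a0)
    | some j =>
      refine ((bb_prim (fun n => ctr (by norm_num)) (f := fun n => (c2 n).a (some j))
        (fun n x hx => at_of isOpen_Ioo ((((h1 n).act he (Pb50.gau_fst (hg n))).1.adm
          (by norm_num)).sa _) hx.2 x.1) ((((bL (some j)).D none).sub ((bL none).D (some j))).congr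
          (.of_forall fun n x hx => ?_))).add (bb_fst op (bb_slc ((bL (some j)).of_le k.le_succ)
            fun n => ctr (by norm_num)))).congr (.of_forall fun n x _ => ?_)
      · have sc := fun i => at_of isOpen_Ioo (((h1 n).adm (by norm_num)).sa i) hx.2 x.1
        have z : (FZ e).D (some j) ((c2 n).a none) x = 0 :=
          (dv_congr ((wn_op.eventually_mem hx).mono (a0 n))).trans (congrFun (dv_const _) _)
        rw [← d1_none, d1_act sc ((hu n).un x), ← d1_act sc (un_fst (hg n) x), d1_none, z, sub_zero]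
      · rw [← ea, sub_add_cancel]
  have b2 : BB (FZ e) ⊤ (fun n => wn (s n) (5 / 8)) (k + 1) fun n => (c2 n).Φ :=
    bb_tr he.cyl.m.Jsq (fun n x _ => (hu n).un x) (fun n x _ => un_fst (hg n) x)
      (a := fun i n => (c n).a i) (fun i => (bL i).of_le k.le_succ) b1
      ⟨C, .of_forall fun n => ⟨wn_op, (b n).2⟩⟩
  choose A p hA using fun i => (b1 i).pos
  obtain ⟨P, q, hP⟩ := b2.pos
  have p0 := Finset.sum_nonneg fun i (_ : i ∈ Finset.univ) => (p i).le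
  exact ⟨∑ i, A i + P, fun c s k1 k2 k3 k4 => let n : α := ⟨(c, s), k1, k2, k3, k4⟩
    ⟨_, hg n, fun i => (eventually_top.1 (hA i) n).2.mono ((Finset.single_le_sum
      (fun i _ => (p i).le) (Finset.mem_univ i)).trans (le_add_of_nonneg_right q.le)),
      (eventually_top.1 hP n).2.pred.mono (le_add_of_nonneg_left p0)⟩⟩

/-- the time derivative is small -/
theorem dtb (hI : IntStmt κ lam ν) (he : e.OK) (hw : 0 < e.w) (k : ℕ) (B : ℝ) :
    ∃ C ≥ 0, ∀ (c : e.ZC) s ε, 0 ≤ ε → Lw c s → Tm c s → Bd c s (5 / 8) (k + 4) B →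
      en c (Ioo (s - 5 / 4) (s + 5 / 4)) ≤ ENNReal.ofReal (ε ^ 2) →
      Bd (dt c) s (1 / 4) k (C * ε) := by
  let β : ContDiffBump (0 : ℝ) := ⟨1 / 2, 9 / 16, by norm_num, by norm_num⟩
  obtain ⟨A, hA⟩ := BB.fixed (F := FZ e) (l := ⊤) (S := fun _ : Unit => wn 0 (5 / 8))
    (isCompact_univ.prod isCompact_Icc) (subset_univ _)
    (.of_forall fun _ => ⟨wn_op, prod_mono_right Ioo_subset_Icc_self⟩) (k + 4)
    fun x _ => sm_snd β.contDiff x
  obtain ⟨C, H⟩ := hI e he hw k (2 ^ (k + 4) * |A| * |B|)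
  refine ⟨|C|, abs_nonneg _, fun c s ε h0 h1 h2 h3 h4 => ?_⟩
  let φ : e.Y.M × ℝ → ℝ := fun x => β (x.2 + -s)
  have φb : Lb (FZ e) (wn s (5 / 8)) (k + 4) φ A :=
    (lb_tr wn_op (-s) (eventually_top.1 hA ()).2).sub fun x hx =>
      ⟨trivial, by have := hx.2.1; dsimp [Tmp64.sq]; linarith,
        by have := hx.2.2; dsimp [Tmp64.sq]; linarith⟩
  have φt : tsupport φ ⊆ wn s (5 / 8) := fun x hx => by
    have h : x.2 + -s ∈ tsupport β :=
      (continuous_snd.add continuous_const).closure_preimage_subset _ hx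
    rw [β.tsupport_eq, Real.closedBall_eq_Icc] at h
    exact ⟨trivial, by have := h.1; dsimp [β] at this; linarith,
      by have := h.2; dsimp [β] at this; linarith⟩
  have φ1 : ∀ x ∈ wn s (1 / 2), φ x = 1 := fun x hx => β.one_of_mem_closedBall (by
    rw [Real.closedBall_eq_Icc]
    exact ⟨by have := hx.2.1; dsimp [β]; linarith, by have := hx.2.2; dsimp [β]; linarith⟩)
  have ca := fun i => lb_ext (φb.smul wn_op (h3.1 i)) (by positivity)
    ((tsupport_smul_subset_left _ _).trans φt)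
  have cP := lb_ext (φb.smul wn_op h3.2) (by positivity) ((tsupport_smul_subset_left _ _).trans φt)
  let c3 : e.ZC := ⟨fun i x => φ x • c.a i x, fun x => φ x • c.Φ x⟩
  have z : ∀ x, φ x = 0 ∨ x ∈ wn s (5 / 8) := fun x =>
    (em _).imp_right fun h => φt (subset_tsupport _ h)
  have ad := h1.adm (r := 5 / 8) (by norm_num)
  have ea : ∀ x ∈ wn s (1 / 2), ∀ i, c3.a i =ᶠ[𝓝 x] c.a i := fun x hx i =>
    (wn_op.eventually_mem hx).mono fun y hy => by simp only [c3, φ1 y hy, one_smul]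
  have eP : ∀ x ∈ wn s (1 / 2), c3.Φ =ᶠ[𝓝 x] c.Φ := fun x hx =>
    (wn_op.eventually_mem hx).mono fun y hy => by simp only [c3, φ1 y hy, one_smul]
  have es : ∀ t ∈ Ioo (s - 1 / 2) (s + 1 / 2), sl c3 t = sl c t := fun t ht => YC.ext
    (funext fun j => funext fun y => (ea (y, t) ⟨trivial, ht⟩ _).self_of_nhds)
    (funext fun y => (eP (y, t) ⟨trivial, ht⟩).self_of_nhds)
  have R := H c3 s ε h0 ⟨fun i => (ca i).1, cP.1, fun i x => (z x).elim (fun h => by simp [c3, h])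
      fun h => by simp only [c3, smul_eq_mul, mul_left_comm _ (φ x), ← Finset.mul_sum, ad.pa i x h],
    fun x => (z x).elim (fun h => by simp [c3, h]) fun h => by simp only [c3, map_smul, ad.pΦ x h]⟩
    (fun i => (ca i).2) cP.2 (fun t ht => ⟨fun y => (ea (y, t) ⟨trivial, ht⟩ _).self_of_nhds.trans
      (h2 _ (wn_le (by norm_num) ⟨trivial, ht⟩)), fun y => by
        have k := e_congr (ea (y, t) ⟨trivial, ht⟩) (eP (y, t) ⟨trivial, ht⟩)
        rw [k.1, k.2, es t ht, (eP (y, t) ⟨trivial, ht⟩).self_of_nhds]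
        exact h1.ea (by norm_num) ht y⟩)
    ((setLIntegral_congr_fun measurableSet_Ioo fun t ht => by simp only [es t ht]).le.trans
      ((lintegral_mono_set (Ioo_subset_Ioo (by linarith) (by linarith))).trans h4))
  have le := mul_le_mul_of_nonneg_right (le_abs_self C) h0
  exact ⟨fun i => ((Lb.of_Dw (f := (dt c3).a i) (fun x _ => (FZ e).sm_D (ca i).1 none x) fun w hw x hx =>
      sub_zero ((dt c3).a i) ▸ (R w hw x hx).1 i).congr wn_op fun x hx =>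
        dv_congr (ea x (wn_le (by norm_num) hx) i).symm).mono le,
    ((Lb.of_Dw (f := (dt c3).Φ) (fun x _ => (FZ e).sm_D cP.1 none x) fun w hw x hx =>
      sub_zero (dt c3).Φ ▸ (R w hw x hx).2).congr wn_op fun x hx =>
        dv_congr (eP x (wn_le (by norm_num) hx)).symm).mono le⟩

theorem key (hL : LocwStmt κ lam ν) (hH : HiStmt κ lam ν) (hI : IntStmt κ lam ν) (he : e.OK)
    (hw : 0 < e.w) (hv : Crit v) (B G : ℝ) (k : ℕ) : ∃ C, ∀ (c : e.ZC) s ε, 0 ≤ ε → ε ≤ B →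
      Lw c s → Sup c (Ioo (s - 5 / 4) (s + 5 / 4)) B →
      en c (Ioo (s - 5 / 4) (s + 5 / 4)) ≤ ENNReal.ofReal (ε ^ 2) → Tm c s → Co v (sl c s) →
      En3.dist 1 (sl c s) v ≤ G * √(gn (sl c s)) →
      Cl c (fz v) (Ioo (s - 1 / 4) (s + 1 / 4)) k (C * ε) := by
  obtain ⟨B₁, H1⟩ := bdd hL he hw (B := |B| + B ^ 2) (by positivity) (k + 4 + 4)
  obtain ⟨C₁, p1, H2⟩ := dtb hI he hw (k + 4) B₁
  obtain ⟨K, pK, eK⟩ : ∃ K ≥ 0, K = √(e.D.F.μ.real univ * (2 * Fintype.card κ + e.w)) :=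
    ⟨_, Real.sqrt_nonneg _, rfl⟩
  obtain ⟨C₃, H3⟩ := hH e v he hv k (|B₁| + (1 + |G| * K) * C₁ * |B|)
  refine ⟨3 / 2 * (1 + 2 ^ k * ‖Pb50.cB e.m.J‖ * |C₃|) * C₁ + |C₃| * ((1 + |G| * K) * C₁),
    fun c s ε h0 hB h1 h2 h3 h4 h5 h6 => ?_⟩
  obtain ⟨g, hg, b⟩ := H1 c s h1 (fun x hx => (h2 x hx).trans (by
    linarith [le_abs_self B, sq_nonneg B])) (h3.trans (ENNReal.ofReal_le_ofReal (by
      linarith [abs_nonneg B, pow_le_pow_left₀ h0 hB 2]))) h4
  set c2 := e.cyl.act (fun x => g x.1) c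
  have A := h1.act he (Pb50.gau_fst hg)
  have t2 : Tm c2 s := h4.act hg.1
  have d := H2 c2 s ε h0 A.1 t2 b (A.2.trans_le h3)
  have a2 := A.1.adm (r := 5 / 8) (by norm_num)
  have m : s ∈ Ioo (s - 5 / 8) (s + 5 / 8) := ctr (by norm_num)
  have m' : s ∈ Ioo (s - 1 / 4) (s + 1 / 4) := ctr (by norm_num)
  have fl := fun y => flow he isOpen_Ioo a2 m t2 y (A.1.ea (by norm_num) m y).1
    (A.1.ea (by norm_num) m y).2
  have p2 : 0 ≤ C₁ * ε := mul_nonneg p1 h0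
  have ga : ∀ i, Lb (FY e) univ (k + 4) ((gr (sl c2 s)).a i) (C₁ * ε) := fun i =>
    (((lb_slc m' (d.1 (some i))).neg isOpen_univ).congr isOpen_univ fun y _ => (fl y).1 i).mono
      (abs_of_nonneg p2).le
  have gP : Lb (FY e) univ (k + 4) (gr (sl c2 s)).Φ (C₁ * ε) :=
    (((lb_slc m' d.2).neg isOpen_univ).congr isOpen_univ fun y _ => (fl y).2).mono
      (abs_of_nonneg p2).le
  have e0 : sl c2 s = ay g (sl c s) := sl_act_ay c fun y => sm_fst hg.1 _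
  have e1 : ay (fun y => star (g y)) (sl c2 s) = sl c s := by
    rw [e0, ay_ay he hg (gau_star hg)]
    simp only [st_mul (hg.2 _), ay_one]
  have a1 := h1.adm (r := 1 / 4) (by norm_num)
  have gl := gn_le hw.le p2 (fun i y => (ga i).le (mem_univ y)) fun y => gP.le (mem_univ y)
  rw [← eK, e0, Pb50.Eqv.gn he (adm_sl isOpen_Ioo a1 m') (eqv_ay hg _)] at gl
  have p3 : 0 ≤ |G| * K := mul_nonneg (abs_nonneg _) pK
  have p4 : C₁ * ε ≤ (1 + |G| * K) * C₁ * ε := by nlinarith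
  have p5 : 0 ≤ (1 + |G| * K) * C₁ := by positivity
  have p6 : B₁ ≤ |B₁| + (1 + |G| * K) * C₁ * |B| :=
    (le_abs_self _).trans (le_add_of_nonneg_right (by positivity))
  have R := H3 (sl c2 s) _ ((1 + |G| * K) * C₁ * ε)
    ((mul_le_mul_of_nonneg_left (hB.trans (le_abs_self B)) p5).trans
      (le_add_of_nonneg_left (abs_nonneg _))) (adm_sl isOpen_Ioo a2 m) (gau_star hg)
    ⟨fun i => (sub_zero ((sl c2 s).a i)).symm ▸ (((lb_slc m (b.1 (some i))).of_le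
        (by omega)).mono p6).cb,
      (sub_zero (sl c2 s).Φ).symm ▸ (((lb_slc m b.2).of_le (by omega)).mono p6).cb⟩
    ⟨fun i => (sub_zero ((gr (sl c2 s)).a i)).symm ▸ ((ga i).mono p4).cb,
      (sub_zero (gr (sl c2 s)).Φ).symm ▸ (gP.mono p4).cb⟩ (e1.symm ▸ h5)
    (e1.symm ▸ h6.trans ((mul_le_mul (le_abs_self G) gl (Real.sqrt_nonneg _) (abs_nonneg _)).trans
      (by nlinarith)))
  rw [e1] at R
  have av := adm_sl isOpen_Ioo a1 m'
  have sa := fun i x (hx : x ∈ wn s (1 / 4)) => at_of isOpen_Ioo (a1.sa i) hx.2 x.1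
  have sP := fun x (hx : x ∈ wn s (1 / 4)) => at_of isOpen_Ioo a1.sΦ hx.2 x.1
  have p7 : C₃ * ((1 + |G| * K) * C₁ * ε) ≤ |C₃| * ((1 + |G| * K) * C₁ * ε) :=
    mul_le_mul_of_nonneg_right (le_abs_self _) (by positivity)
  have p8 : 0 ≤ 2 ^ k * ‖Pb50.cB e.m.J‖ * |C₃| * (C₁ * ε) := by positivity
  have p9 : 0 ≤ |C₃| * ((1 + |G| * K) * C₁ * ε) := by positivity
  have la : ∀ i, Lb (FZ e) (wn s (1 / 4)) k (c.a i - (fz v).a i)
      (3 / 2 * (C₁ * ε) + |C₃| * ((1 + |G| * K) * C₁ * ε)) := fun i => by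
    cases i with
    | none => exact ((Lb.const wn_op 0).congr wn_op fun x hx =>
        sub_eq_zero.2 (h4 x (wn_le (by norm_num) hx))).mono (by rw [norm_zero]; positivity)
    | some j =>
      refine lb_fin (sa _) p2 p9 (((d.1 (some j)).of_le (by omega)).congr wn_op fun x hx => ?_)
        ((Lb.of_CB ((sm_a av j).sub (sm_a hv.1 j)) (R.1.1 j)).mono p7)
      have z : ∀ {c : e.ZC}, Tm c s → (FZ e).D (some j) (c.a none) x = 0 := fun h =>
        (dv_congr ((wn_op.eventually_mem (wn_le (by norm_num) hx)).mono h)).trans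
          (congrFun (dv_const _) _)
      have := d1_act (b := e.cyl) (fun i => sa i x hx) (un_fst hg x) none (some j)
      rwa [d1_none, d1_none, z h4, z t2, sub_zero, sub_zero, eq_comm] at this
  have lP : Lb (FZ e) (wn s (1 / 4)) k (c.Φ - (fz v).Φ) (3 / 2 *
      (2 ^ k * ‖Pb50.cB e.m.J‖ * |C₃| * (C₁ * ε)) + |C₃| * ((1 + |G| * K) * C₁ * ε)) := by
    refine lb_fin sP p8 p9 ((Lb.bil wn_op (Pb50.cB e.m.J) (abs_nonneg _) p2 (lb_fst wn_op
      (abs_nonneg _) (Lb.of_CB (gau_star hg).1 R.2).abs) (d.2.of_le (by omega))).congr wn_op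
      fun x hx => ?_) ((Lb.of_CB ((sm_P av).sub (sm_P hv.1)) R.1.2).mono p7)
    have := dv_bil (e := (FZ e).e none) (Pb50.cB e.m.J) (SA.md (sm_fst hg.1 x)) (sP x hx).md
    rw [show dv (IC e.Y.I) ((FZ e).e none) (fun x => g x.1) x = 0 from
      congrFun (D_none_fst (FY e) hg.1) x, map_zero, zero_apply, zero_add] at this
    exact ((Eqv71.cs_one _ _).symm.trans (by rw [← st_mul (hg.2 x.1), ← Eqv71.cs_mul he.cyl.m.Jsq])
      ).trans (congrArg (cs e.m.J _) this.symm)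
  exact fun w hw x hx => ⟨fun i => ((la i).mono (by nlinarith)).Dw w hw x hx,
    (lP.mono (by nlinarith)).Dw w hw x hx⟩

/-- **SWD-WD** -/
theorem wd (hL : LocwStmt κ lam ν) (hG : GapStmt κ lam ν) (hH : HiStmt κ lam ν)
    (hI : IntStmt κ lam ν) : WdStmt κ lam ν := fun e v hv => by
  obtain ⟨η₀, p, G, H⟩ := hG e v hv
  refine ⟨η₀, p, fun B => ?_⟩
  choose C hC using key hL hH hI hv.ok hv.w hv.crit B G
  refine ⟨C, fun c s ε h0 hB h1 h2 ⟨g, hg, h3⟩ h4 => ?_⟩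
  have a1 := Lw.adm h1 (r := 1) (by norm_num)
  have a := adm_ay hv.ok (adm_sl isOpen_Ioo a1 (ctr one_pos)) hg
  obtain ⟨θ, sθ, co, -, ds⟩ := H _ η₀ le_rfl a h3
  have hG := gau_mul (gau_ei sθ) hg
  obtain ⟨u, u1, u2, u3, u4⟩ := exists_tmp (F := FY e) (r' := 5 / 8) (by norm_num) (by norm_num)
    (a1.sa none) s hG.1 hG.2
  have e1 : sl (e.cyl.act u c) s = ay (ei θ) (ay g (sl c s)) := by
    rw [sl_act_ay c fun y => u1 _, ay_ay hv.ok hg (gau_ei sθ)]
    simp only [u3]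
  have A := Lw.act hv.ok h1 ⟨u1, u2⟩
  exact ⟨u, ⟨u1, u2⟩, fun k => hC k _ s ε h0 hB A.1
    (fun x hx => (Pb50.norm_act hv.ok.cyl (u2 x)).trans_le (h2 x hx)) (A.2.trans_le h4)
    (fun x hx => sub_eq_zero.2 (u4 x hx).symm) (e1 ▸ co)
    (by rwa [e1, Pb50.Eqv.gn hv.ok a (eqv_ay (gau_ei sθ) _)])⟩

end Crest.Agent.X212.Wd45
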