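import Crest.Agent.X212.Dz34.Defs
import Crest.Agent.X212.Win45.Lim
import Crest.Agent.X212.Cut71.Lit

/-!
# X212, DZ-STAT (helper45): the cokernel at a static solution vanishes
-/

set_option autoImplicit false
set_option linter.unusedSectionVars false
noncomputable section
open scoped Manifold ContDiff Topology InnerProductSpace
open MeasureTheory Set Function Filter

namespace Crest.Agent.X212.Wd45
open An Sob92 Cyf70 Sw Sw.En3 Map77.S Dz34 Pb50 Cut71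
open Map77 (P2 i1 i2 f2 s2 sm2 ext2 inner2)
open Win45 (FY FZ lg)

/-- a finite dimensional space is not invariant under isometries that tend weakly to zero -/
theorem bot_of {H : Type} [NormedAddCommGroup H] [InnerProductSpace ℝ H] {A : Submodule ℝ H}
    [FiniteDimensional ℝ A] {D : Set H} (hD : Dense D) (V : ℕ → H →L[ℝ] H)
    (hV : ∀ n x, ‖V n x‖ = ‖x‖) (hA : ∀ n, ∀ z ∈ A, V n z ∈ A)
    (h0 : ∀ x ∈ D, ∀ y ∈ D, ∀ᶠ n in atTop, ⟪x, V n y⟫_ℝ = 0) : A = ⊥ := by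
  refine (Submodule.eq_bot_iff _).2 fun z hz => ?_
  obtain ⟨a, ha, φ, hφ, h⟩ := (isCompact_sphere (0 : A) ‖z‖).tendsto_subseq
    (x := fun n => ⟨V n z, hA n z hz⟩) fun n => mem_sphere_zero_iff_norm.2 (hV n z)
  rw [← norm_eq_zero, ← mem_sphere_zero_iff_norm.1 ha, norm_eq_zero, ← Submodule.coe_eq_zero]
  refine hD.eq_zero_of_inner_left ℝ fun x hx => ?_
  rw [real_inner_comm]
  refine tendsto_nhds_unique (tendsto_const_nhds.inner ((continuous_subtype_val.tendsto _).comp h))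
    (Tendsto.comp (g := fun n => ⟪x, V n z⟫_ℝ) (NormedAddGroup.tendsto_nhds_zero.2 fun ε hε => ?_)
      hφ.tendsto_atTop)
  have p : 0 < ‖x‖ + 1 := by positivity
  obtain ⟨y, hy, k⟩ := hD.exists_dist_lt z (div_pos hε p)
  filter_upwards [h0 x hx y hy] with n hn
  rw [← sub_zero (inner _ _ _), ← hn, ← inner_sub_right, ← map_sub]
  rw [dist_eq_norm, lt_div_iff₀ p] at k
  refine (norm_inner_le_norm _ _).trans_lt ?_
  rw [hV]
  nlinarith [norm_nonneg (z - y)]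

variable {κ lam ν : Type} [Fintype κ] [Fintype lam] [Fintype ν] [DecidableEq ν]
  {e : En3 κ lam ν} {c : e.ZC} {s : ℝ} {g : e.Y.M × ℝ → ℂ}

section tr
variable {V : Type} [NormedAddCommGroup V] [InnerProductSpace ℝ V]
  {p Γ : e.Y.M × ℝ → V →L[ℝ] V} {w w' : e.Y.M × ℝ → V}

/-- translation and rotation -/
def tr (Γ : e.Y.M × ℝ → V →L[ℝ] V) (s : ℝ) (w : e.Y.M × ℝ → V) (x : e.Y.M × ℝ) : V :=
  Γ x (w (x.1, x.2 + s))

theorem tr_sec (hΓ : Sm (IC e.Y.I) Γ) (hp : ∀ x v, p (x.1, x.2 + s) v = v → p x (Γ x v) = Γ x v)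
    (hw : w ∈ Sec (IC e.Y.I) p) : tr Γ s w ∈ Sec (IC e.Y.I) p :=
  ⟨hΓ.clm_apply (hw.1.comp (sm_sH s)), (hw.2.1.comp_homeomorph (sH e s)).mono
    fun x hx h => hx ((congrArg (Γ x) h).trans (map_zero _)), fun x => hp x _ (hw.2.2 _)⟩

theorem tr_ip (hi : ∀ x v v', ⟪Γ x v, Γ x v'⟫_ℝ = ⟪v, v'⟫_ℝ) :
    e.D.Z.ip 0 (tr Γ s w) (tr Γ s w') = e.D.Z.ip 0 w w' := by
  simp only [Pre.ip, tr, hi]
  exact (mp_sH s).integral_comp (sH e s).measurableEmbedding fun x => ⟪w x, w' x⟫_ℝ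

theorem tr_iso (hΓ : Sm (IC e.Y.I) Γ) (hp : ∀ x v, p (x.1, x.2 + s) v = v → p x (Γ x v) = Γ x v)
    (hi : ∀ x v v', ⟪Γ x v, Γ x v'⟫_ℝ = ⟪v, v'⟫_ℝ) : ∃ U : e.D.Z.H 0 p →L[ℝ] e.D.Z.H 0 p,
      e.D.Z.Rep U (tr Γ s) ∧ ∀ a b, ⟪U a, U b⟫_ℝ = ⟪a, b⟫_ℝ := by
  have h := (rep_liftT (F := e.D.Z.toPre) (F' := e.D.Z.toPre) (k := 0) (j := 0) (T := tr Γ s)
    (fun _ => tr_sec hΓ hp) (fun _ _ _ _ => funext fun x => map_add _ _ _)
    (fun _ _ _ => funext fun x => map_smul _ _ _) zero_le_one fun u _ => by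
      rw [one_mul, Pre.nrm, tr_ip hi, Pre.nrm]).1
  refine ⟨_, h, fun a b => ?_⟩
  induction a, b using H_ind₂ with
  | hP => exact isClosed_eq (by fun_prop) (by fun_prop)
  | h u v => simp only [RepT_toH h, Pre.inner_toH, tr_ip hi]

theorem tr_far (hw : HasCompactSupport w) (hw' : HasCompactSupport w')
    (Γ : ℕ → e.Y.M × ℝ → V →L[ℝ] V) :
    ∀ᶠ n : ℕ in atTop, e.D.Z.ip 0 w (tr (Γ n) n w') = 0 := by
  obtain ⟨a, ha⟩ := (hw.isCompact.image continuous_snd).bddBelow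
  obtain ⟨b, hb⟩ := (hw'.isCompact.image continuous_snd).bddAbove
  filter_upwards [tendsto_natCast_atTop_atTop.eventually_gt_atTop (b - a)] with n hn
  refine (congrArg (integral _) (funext fun x => ?_)).trans (integral_zero _ _)
  by_cases h : w x = 0
  · rw [h, inner_zero_left]
  · have := ha ⟨x, subset_tsupport _ h, rfl⟩
    rw [tr, image_eq_zero_of_notMem_tsupport (f := w') fun k => by
      have := hb ⟨_, k, rfl⟩; dsimp only at *; linarith, map_zero, inner_zero_right]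

end tr

/-- the rotation of the variations -/
def rC (g : e.Y.M × ℝ → ℂ) (x : e.Y.M × ℝ) : Cf κ ν →L[ℝ] Cf κ ν :=
  sm2 (.id ℝ _) (cB e.m.J (g x))

/-- the rotation of the equations -/
def rE (g : e.Y.M × ℝ → ℂ) (x : e.Y.M × ℝ) : Ef κ ν →L[ℝ] Ef κ ν :=
  sm2 (sm2 (cB e.m.J (g x)) (.id ℝ _)) (.id ℝ _)

theorem sm_sm2 {X Y : Type} [NormedAddCommGroup X] [NormedSpace ℝ X] [NormedAddCommGroup Y]
    [NormedSpace ℝ Y] {A : e.Y.M × ℝ → X →L[ℝ] X} {B : e.Y.M × ℝ → Y →L[ℝ] Y}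
    (hA : Sm (IC e.Y.I) A) (hB : Sm (IC e.Y.I) B) : Sm (IC e.Y.I) fun x => sm2 (A x) (B x) :=
  (contMDiff_const.clm_comp (hA.clm_comp contMDiff_const)).add
    (contMDiff_const.clm_comp (hB.clm_comp contMDiff_const))

theorem sm_cB (hg : Gau e.Z.I g) : Sm (IC e.Y.I) fun x => cB e.m.J (g x) :=
  (cB e.m.J).contMDiff.comp hg.1

variable (he : e.OK)
include he

theorem adm_vr (hc : e.cyl.Adm c) {u : e.Y.M × ℝ → Cf κ ν} (hu : u ∈ Sec (IC e.Y.I) (pC e.cyl))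
    (r : ℝ) : e.cyl.Adm (vr c u r) := by
  refine ⟨fun i => (hc.sa i).add (contMDiff_const.mul ((co i).contMDiff.comp hu.1)),
    hc.sΦ.add ((r • sp).contMDiff.comp hu.1), fun i x => ?_, fun x => ?_⟩
  · have := congrArg (co i) (hu.2.2 x)
    simp only [co_apply, Map77.f2_ps, Bg.p1, Wz78.idx_apply] at this
    simp only [vr, mul_add, Finset.sum_add_distrib, hc.pa, mul_left_comm _ r, ← Finset.mul_sum]
    exact congrArg (_ + r * ·) this
  · simp only [vr, map_add, map_smul, hc.pΦ, Map77.maps_s2 x _ (hu.2.2 x)]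

theorem rC_p (x : e.Y.M × ℝ) (v : Cf κ ν) (h : pC e.cyl (x.1, x.2 + s) v = v) :
    pC e.cyl x (rC g x v) = rC g x v := by
  have h1 : e.cyl.p1 (x.1, x.2 + s) = e.cyl.p1 x :=
    congrArg (idx · _) (funext₂ fun i j => (sH_lit s).P i j x trivial)
  refine ext2 ?_ ?_
  · simpa [rC, h1] using congrArg (f2 _ _) h
  · have := Map77.maps_s2 _ _ h
    simp only [rC, Map77.s2_ps, Map77.s2_sm2, cB_apply]
    exact (cs_comm (Jpp he.cyl x) _ _).trans (congrArg _ this)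

theorem rE_p (x : e.Y.M × ℝ) (v : Ef κ ν) (h : pE e.cyl (x.1, x.2 + s) v = v) :
    pE e.cyl x (rE g x v) = rE g x v := by
  have h1 := Map77.maps_f2 _ _ h
  refine ext2 (ext2 ?_ ?_) (by simp [rE])
  · have := Map77.maps_f2 _ _ h1
    simp only [rE, Map77.f2_ps, Map77.f2_sm2, cB_apply]
    exact (cs_comm ((Commute.add_right (Jp he.cyl x) (Jvol he.cyl x)).smul_right _) _ _).trans
      (congrArg _ this)
  · have := Map77.maps_s2 _ _ h1
    rw [show e.cyl.p2 (x.1, x.2 + s) = e.cyl.p2 x from p2_φ (sH_lit s) trivial] at this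
    simpa [rE] using this

theorem rE_i (hg : Gau e.Z.I g) (x : e.Y.M × ℝ) (v v' : Ef κ ν) :
    ⟪rE g x v, rE g x v'⟫_ℝ = ⟪v, v'⟫_ℝ := by
  simp only [inner2, rE, Map77.f2_sm2, Map77.s2_sm2, cB_apply, ContinuousLinearMap.id_apply,
    inner_cs (J := e.m.J) he.cyl.m.Jsq he.cyl.m.Jsk (hg.2 x)]

theorem e_act (hc : e.cyl.Adm c) (hg : Gau e.Z.I g) (x : e.Y.M × ℝ) :
    ED (e.cyl.act g c) x = cB e.m.J (g x) (ED c x) ∧ EC (e.cyl.act g c) x = EC c x := by
  have h := eqv_sl (s := x.2) c fun y => LG.of_gau hg _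
  refine ⟨?_, ?_⟩
  · rw [ED, ED, map_sub, eD_act he.cyl (.of_adm hc x) (.of_gau hg x)]
    exact congrArg _ (ptD_act (T := fun _ : Empty => none) (q := 0) he h)
  · rw [EC, EC, eC_act he.cyl (fun i => hc.sa i x) (.of_gau hg x),
      he.per _ _ (sl_adm fun y => .of_adm hc _) h]

omit he in
theorem adm_shf (hc : e.cyl.Adm c) : e.cyl.Adm (shf s c) :=
  adm_of fun _ => la_sh (.of_forall (At.pb _ c)) (.of_adm hc _)

theorem lin_tr (hc : e.cyl.Adm c) (hg : Gau e.Z.I g) {u : e.Y.M × ℝ → Cf κ ν}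
    (hu : u ∈ Sec (IC e.Y.I) (pC e.cyl)) {w : e.Y.M × ℝ → Ef κ ν} (h : Lin c u w) :
    Lin (e.cyl.act g (shf s c)) (tr (rC g) s u) (tr (rE g) s w) := fun x => by
  have h1 : ∀ r, vr (e.cyl.act g (shf s c)) (tr (rC g) s u) r =
      e.cyl.act g (shf s (vr c u r)) := fun r => Cfg.ext
    (funext₂ fun i x => by simp only [vr, tr, rC, co_apply, Map77.f2_sm2, act_a, Cfg.pb,
      ContinuousLinearMap.id_apply]; ring)
    (funext fun x => by simp only [vr, tr, rC, Map77.s2_sm2, act_Φ, Cfg.pb, map_add, map_smul]; rfl)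
  have h2 := fun r => e_act he (adm_shf (s := s) (adm_vr he hc hu r)) hg x
  have h3 : ∀ c : e.ZC, ED (shf s c) x = ED c (x.1, x.2 + s) ∧
      EC (shf s c) x = EC c (x.1, x.2 + s) := fun c =>
    ⟨congrArg (· - _) (eD_φ (sH_lit s) trivial (.of_forall (At.pb _ c))),
      congrArg (· + _) (eC_φ (sH_lit s) trivial (.of_forall (At.pb _ c)))⟩
  simp only [h1, h2, h3, tr, rE, Map77.f2_sm2, Map77.s2_sm2, ContinuousLinearMap.id_apply]
  exact ⟨(cB e.m.J (g x)).hasFDerivAt.comp_hasDerivAt 0 (h _).1, (h _).2⟩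

/-- a solution with vanishing gradient is static in the temporal gauge -/
theorem exists_stat (hw : 0 < e.w) (hc : e.cyl.Adm c) (h1 : ED c = 0) (h2 : EC c = 0)
    (h3 : ∀ t, gn (sl c t) = 0) : ∃ g, Gau e.Z.I g ∧ ∀ s, shf s (e.cyl.act g c) = e.cyl.act g c := by
  obtain ⟨u, u1, u2, u3⟩ := Tmp64.exists_sol (I := e.Y.I)
    (A := fun x => c.a none x • ContinuousLinearMap.mul ℝ ℂ Complex.I)
    ((hc.sa none).smul contMDiff_const) 0 (contMDiff_const (c := 1))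
  have u4 : ∀ x, ‖u x‖ = 1 := fun x => by
    have := Tmp64.const_of_deriv (f := fun s => ‖u (x.1, s)‖ ^ 2)
      (fun s => (u3 x.1 s).norm_sq.congr_deriv (by simp [Complex.inner, mul_comm]; ring)) x.2 0
    rw [u2, norm_one, one_pow] at this
    exact (pow_eq_one_iff_of_nonneg (norm_nonneg _) two_ne_zero).1 this
  have hg : Gau e.Z.I u := ⟨u1, u4⟩
  have a0 : ∀ x, (e.cyl.act u c).a none x = 0 := fun x => sub_eq_zero.2 (Win45.lg_of (FZ e) (u4 x)
    ((hasDerivAt_slice (FY e) u1 x.1 x.2).unique (u3 x.1 x.2))).symm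
  have ad : e.cyl.Adm (e.cyl.act u c) := adm_of fun x => (LA.of_adm hc x).act he.cyl (u1 x)
  have fl := fun t y => Win45.flow he isOpen_univ (admOn_of fun x _ => .of_adm ad x) (mem_univ t)
    (fun x _ => a0 x) y (sub_eq_zero.1 ((e_act he hc hg (y, t)).1.trans (by simp [h1])))
    (by rw [neg_smul]; exact eq_neg_of_add_eq_zero_left ((e_act he hc hg (y, t)).2.trans (by simp [h2])))
  have cr := fun t => Win45.crit_of_gn he hw (sl_adm (s := t) fun y => .of_adm ad _)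
    ((Eqv.gn he (sl_adm fun y => .of_adm hc _) (eqv_sl c fun y => .of_gau hg _)).trans (h3 t))
  refine ⟨u, hg, fun s => Cfg.ext (funext₂ fun i x => ?_) (funext fun x => ?_)⟩
  · cases i with
    | none => exact (a0 _).trans (a0 _).symm
    | some k => exact Tmp64.const_of_deriv (fun t => (hasDerivAt_slice (FY e) (ad.sa _) x.1 t).congr_deriv
        (neg_eq_zero.1 (((fl t x.1).1 k).symm.trans ((cr t).2.1 k _)))) _ _
  · exact Tmp64.const_of_deriv (fun t => (hasDerivAt_slice (FY e) ad.sΦ x.1 t).congr_deriv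
      (neg_eq_zero.1 ((fl t x.1).2.symm.trans ((cr t).2.2 _)))) _ _

omit he in
/-- **DZ-STAT** -/
theorem stat : StatStmt κ lam ν := fun e he hw c hc h1 h2 h3 _ => by
  obtain ⟨g, hg, h⟩ := exists_stat he hw hc h1 h2 h3
  let γ : ℝ → e.Y.M × ℝ → ℂ := fun s x => star (g x) * g (x.1, x.2 + s)
  have g1 : ∀ s, Gau e.Z.I fun x : e.Y.M × ℝ => g (x.1, x.2 + s) := fun s =>
    ⟨hg.1.comp (sm_sH s), fun x => hg.2 _⟩
  have g2 : Gau e.Z.I fun x => star (g x) :=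
    ⟨fun x => sa_star (hg.1 x), fun x => by rw [norm_star, hg.2]⟩
  have hγ : ∀ s, Gau e.Z.I (γ s) := fun s => ⟨fun x => Wz78.SA.mul (g2.1 x) ((g1 s).1 x),
    fun x => by rw [norm_mul, g2.2, hg.2, one_mul]⟩
  have fx : ∀ s, e.cyl.act (γ s) (shf s c) = c := fun s => by
    have : e.cyl.act (fun x => g (x.1, x.2 + s)) (shf s c) = shf s (e.cyl.act g c) :=
      Cfg.ext (funext₂ fun i x => congrArg (fun z => c.a i (x.1, x.2 + s) -
        (star (g (x.1, x.2 + s)) * z).im) (Dw_sh s [i] (.of_forall fun _ => rfl))) rfl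
    rw [← act_act he.cyl (g1 s) g2, this, h, act_act he.cyl hg g2]
    simp only [star_mul_one (hg.2 _), act_one]
  have sE := fun s => sm_sm2 (sm_sm2 (sm_cB (hγ s)) (contMDiff_const (c := .id ℝ (F2 κ))))
    (contMDiff_const (c := .id ℝ ℝ))
  choose U r1 r2 using fun s => tr_iso (s := s) (Γ := rE (γ s)) (sE s) (rE_p he) (rE_i he (hγ s))
  refine bot_of (e.D.Z.dense_toH 0 _) (fun n => U n) (fun n x => by
    rw [norm_eq_sqrt_real_inner, r2, ← norm_eq_sqrt_real_inner]) (fun n z hz => ?_) ?_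
  · simp only [Ann, Submodule.mem_iInf, Submodule.mem_orthogonal_singleton_iff_inner_right] at hz ⊢
    intro u hu w k
    have k1 := lin_tr (s := -n) he hc (hγ (-n)) hu k
    rw [fx] at k1
    rw [← hz _ (tr_sec (sm_sm2 contMDiff_const (sm_cB (hγ _))) (rC_p he) hu)
      ⟨_, tr_sec (Γ := rE (γ _)) (sE _) (rE_p he) w.2⟩ k1, ← r2 n _ z]
    refine congrArg (⟪·, _⟫_ℝ) (RepT_toH' (r1 n) _ w (funext fun x => ?_)).symm
    have : γ n x * γ (-n) (x.1, x.2 + n) = 1 := by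
      simp only [γ, add_neg_cancel_right, Prod.mk.eta]
      linear_combination star (g x) * g x * star_mul_one (hg.2 (x.1, x.2 + n)) +
        star_mul_one (hg.2 x)
    refine ext2 (ext2 ?_ (by simp [tr, rE])) (by simp [tr, rE])
    simp only [tr, rE, Map77.f2_sm2, cB_apply, add_neg_cancel_right,
      Eqv71.cs_mul (J := e.m.J) he.cyl.m.Jsq, this, Eqv71.cs_one]
  · rintro _ ⟨φ, rfl⟩ _ ⟨ψ, rfl⟩
    simp only [RepT_toH (r1 _), Pre.inner_toH]
    exact tr_far φ.2.2.1 ψ.2.2.1 _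

end Crest.Agent.X212.Wd45
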